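import Vale.Agent.P353S91.Br

open Vale.Agent.P353.BFSS Vale.Agent.P353S91

universe u v

/-- The threshold-bound-state theorem for the operator `H_N`: for every `N ≥ 2` the data of the
`SU(N)` BFSS matrix model exist; for all such data the physical Hilbert space exists, and on it
there is exactly one operator `H` associated with the closure of the form `q_N`; this operator is
self-adjoint and nonnegative, and its kernel has dimension one. -/
theorem Vale.Agent.Results.P353.AHamiltonian.result {N : ℕ} (hN : 2 ≤ N) :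
    (∃ (F : Type) (_ : NormedAddCommGroup F) (_ : InnerProductSpace ℂ F),
      Nonempty (Model N (N ^ 2 - 1) F)) ∧
    ∀ (d : ℕ) (F : Type u) [NormedAddCommGroup F] [InnerProductSpace ℂ F] (M : Model N d F),
      (∃ (E : Type u) (_ : NormedAddCommGroup E) (_ : InnerProductSpace ℂ E) (_ : CompleteSpace E)
        (ι : E → Conf d → F), IsPhysSpace M ι) ∧
      ∀ (E : Type v) [NormedAddCommGroup E] [InnerProductSpace ℂ E] [CompleteSpace E]
        (ι : E → Conf d → F), IsPhysSpace M ι →
        (∃! H, IsHamiltonian M ι H) ∧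
          ∀ H, IsHamiltonian M ι H → IsSelfAdjoint H ∧ IsNonneg H ∧ kerDim H = 1 :=
  ⟨(Vale.Agent.P353.Z.AFinal.oneX.{0} hN).1, fun _ _ _ _ M =>
    ⟨⟨Vale.Agent.P353B91.Phys M, inferInstance, inferInstance, inferInstance, _, ex_space M⟩,
      fun _ _ _ _ _ h => ⟨ex_ham M h, fun _ hH =>
        ⟨(ham_sa M h hH).1, (ham_sa M h hH).2, ham_ker M hN h hH⟩⟩⟩⟩
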